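import Vale.Agent.P366Q.D.Defs
import Vale.Agent.P366Y.D.Hb

/-!
# P366Q, block D on manifolds: the bounds of the capillary term and of the function after the cut
-/

open MeasureTheory Metric Filter Topology Set
open scoped ContDiff ENNReal
open Vale.Agent.P366 Vale.Agent.P366.Stmt Vale.Agent.P366Z Vale.Agent.P366Y
open Vale.Agent.P366M.Y.C (ex er gt ww b2 Tst)
open Vale.Agent.P366M.Y.J (Jk Cx)
open Vale.Agent.P366Y.J (io)
open Vale.Agent.P366Y.D (dz)
open Vale.Agent.P366Y.D.HbH (sum_le mul_le add_le)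

noncomputable section

namespace Vale.Agent.P366M.Y.D

namespace HbH

variable {n : ℕ} {M : Type} [Mfe n M]

theorem rc_le (r : ℝ) (x : M) : |rc r x| ≤ 1 :=
  (abs_of_nonneg (rc_mem r x).1).trans_le (rc_mem r x).2

theorem hess_eq (g : Fld n M) (f : M → ℝ) (x : M) (i j : Fin n) :
    hess g f x i j = D2 f x i j - ∑ k, (chr g k i j x - chr bg k i j x) * pd k f x := by
  simp only [D2, hess, sub_mul, Finset.sum_sub_distrib]
  ring

theorem fh_ev {X : Dat n M} (hX : X.Ok) (f : M → ℝ) {x : M} (hx : X.R + 6 < ‖px x‖) :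
    fh X f =ᶠ[𝓝 x] fun _ => 0 :=
  (ev_lt_px hx).mono fun y hy => by
    rw [fh, rc_zero (by linarith [hX.R1]) (by linarith), zero_mul]

end HbH

open HbH

/-- **row CPB** -/
theorem cpb : CPB := by
  intro n M _ X P s₁ B A f hX hP hB hf h
  have s1 : Smooth (cp X P A f) := CD.add (hP.smT.compM hf) (CD.mul
    (CD.add (CD.mul (sm_rc _) hX.smp) (CD.mul (CD.sub cd_const (sm_rc _)) cd_const))
    (CD.div_const hf _).arctan)
  have k : ∀ x, |cp X P A f x| ≤ 2 * P.CK + 2 * B := fun x => by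
    obtain ⟨r0, r1⟩ := rc_mem (X.R + 3) x
    obtain ⟨p0, p1⟩ := hX.pb x
    obtain ⟨-, -, -, -, -, -, q0, q1, -⟩ := hP.pos
    obtain ⟨b0, b1⟩ := hB.B1
    refine add_le (hP.Tb _ (h x)) ((mul_le (A := B) (B := 2) (abs_le.2 ⟨?_, ?_⟩)
      (abs_le.2 ⟨?_, ?_⟩)).trans_eq (mul_comm _ _))
    · nlinarith [mul_nonneg r0 p0, mul_nonneg (sub_nonneg.2 r1) q0.le]
    · nlinarith [mul_le_mul_of_nonneg_left (p1.trans b1) r0,
        mul_le_mul_of_nonneg_left (q1.trans b0) (sub_nonneg.2 r1)]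
    · linarith [Real.neg_pi_div_two_lt_arctan (f x / (1 / A ^ 2)), Real.pi_le_four]
    · linarith [Real.arctan_lt_pi_div_two (f x / (1 / A ^ 2)), Real.pi_le_four]
  exact ⟨s1, CD.mul (sm_rc _) s1, fun x =>
    ⟨k x, (mul_le (rc_le _ x) (k x)).trans_eq (one_mul _)⟩⟩

/-- **row HB** -/
theorem hb : HB := by
  intro n M _ X P s₁ B N K₀ hX hP hB
  have b0 := hB.B1.1
  have f0 := hP.pos.2.2.2.2.1
  obtain ⟨c, hc⟩ : ∃ c, c = B * (8 * P.F₀) + |N| := ⟨_, rfl⟩
  obtain ⟨e, he⟩ : ∃ e, e = B * (8 * P.F₀) + B * |N| + B * |N| + |K₀| + n * (B * |N|) := ⟨_, rfl⟩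
  have c0 : 0 ≤ B * (8 * P.F₀) := by positivity
  have c1 : 0 ≤ B * (n * c ^ 2) := by positivity
  have c2 : 0 ≤ n * (n * (n * (n * (B * B * e * e)))) := by
    rw [mul_assoc (B * B)]
    have := mul_self_nonneg e
    positivity
  refine ⟨1 + B * (n * c ^ 2) + n * (n * (n * (n * (B * B * e * e)))), by linarith,
    fun A hA θ ε K ψ f h => ?_⟩
  have hf := h.sm
  have sr := sm_rc (M := M) (X.R + 5)
  have d0 : ∀ x i, |pd i f x| ≤ |N| := fun x i =>
    (abs_pd_le (hf.diff x) i).trans ((h.grad x).trans (le_abs_self N))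
  have d2 : ∀ x i, |pd i (fh X f) x| ≤ c := fun x i => by
    rw [show pd i (fh X f) x = _ from pd_mul (sr.diff x) (hf.diff x) i, hc, ← one_mul |N|]
    exact add_le (mul_le (hB.cut x i i).1 (h.sup x)) (mul_le (rc_le _ x) (d0 x i))
  have d3 : ∀ u x, (∀ i, |pd i u x| ≤ c) → ip X.g u u x ≤ B * (n * c ^ 2) := fun u x k =>
    ((hB.el x).up_hi _).trans (mul_le_mul_of_nonneg_left
      (sum_le fun i => sq_le_sq' (abs_le.1 (k i)).1 (abs_le.1 (k i)).2) (by linarith))
  refine ⟨CD.mul sr hf, fun x => ⟨(d3 f x fun i => (d0 x i).trans (by linarith)).trans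
    (by linarith), (d3 _ x (d2 x)).trans (by linarith), ?_⟩⟩
  refine le_trans (b := n * (n * (n * (n * (B * B * e * e)))) * A ^ 2) ?_
    (mul_le_mul_of_nonneg_right (by linarith) (sq_nonneg A))
  rcases le_or_gt ‖px x‖ (X.ρ + 1) with hx | hx
  · obtain ⟨-, -, -, k1, k2⟩ := hB.bd x hx
    have d4 : ∀ i j, |hess X.g (fh X f) x i j| ≤ e * A := fun i j => by
      have k3 : |D2 f x i j| ≤ |K₀| * A :=
        ((norm_le_pi_norm (D2 f x i) j).trans ((norm_le_pi_norm (D2 f x) i).trans (h.d2 x))).trans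
          (mul_le_mul_of_nonneg_right (le_abs_self K₀) (by linarith))
      have k4 : |∑ k, (chr X.g k i j x - chr bg k i j x) * pd k f x| ≤ n * (B * |N|) :=
        (Finset.abs_sum_le_sum_abs _ _).trans (sum_le fun k => mul_le (k1 k i j) (d0 x k))
      have k5 := (abs_nonneg _).trans k4
      have k6 : 0 ≤ B * |N| := by positivity
      rw [show hess X.g (fh X f) x i j = _ from hess_mul (sr.c2 x) (hf.c2 x) i j, hess_eq X.g f]
      refine (add_le (add_le (mul_le (rc_le _ x) ((abs_sub _ _).trans (add_le_add k3 k4)))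
        (mul_le (h.sup x) (hB.cut x i j).2)) (add_le (mul_le (hB.cut x i i).1 (d0 x j))
        (mul_le (d0 x i) (hB.cut x j j).1))).trans ?_
      rw [he]
      nlinarith
    refine (sum_le fun i => sum_le fun j => sum_le fun k => sum_le fun l => (le_abs_self _).trans
      (mul_le (mul_le (mul_le (k2 i k) (k2 j l)) (d4 i j)) (d4 k l))).trans_eq (by ring)
  · have k : ∀ i j, hess X.g (fh X f) x i j = 0 := fun i j => by
      rw [hess_congr (fh_ev hX f (by linarith [hX.Rρ])), hess_const]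
    simp only [normSq, k, mul_zero, Finset.sum_const_zero]
    exact mul_nonneg c2 (sq_nonneg A)

end Vale.Agent.P366M.Y.D
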