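import Vale.Agent.P366Q.D.Defs
import Vale.Agent.P366Q.D.Hb
import Vale.Agent.P366Y.D.Cut1

/-!
# P366Q, block D on manifolds: the terms of order at most one in the zone of the cut
-/

open MeasureTheory Metric Filter Topology Set
open scoped ContDiff ENNReal
open Vale.Agent.P366 Vale.Agent.P366.Stmt Vale.Agent.P366Z Vale.Agent.P366Y
open Vale.Agent.P366M.Y.C (ex er gt ww b2 Tst)
open Vale.Agent.P366M.Y.J (Jk Cx)
open Vale.Agent.P366Y.J (io)
open Vale.Agent.P366Y.D (dz)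
open Vale.Agent.P366Y.D.Cut1 (atan)

noncomputable section

namespace Vale.Agent.P366M.Y.D

variable {n : ℕ} {M : Type} [Mfe n M]

namespace Cut1

theorem ipb {g : Fld n M} {u v : M → ℝ} {x : M} {B a b : ℝ} (h : ∀ i j, |up g i j x| ≤ B)
    (hu : ∀ i, |pd i u x| ≤ a) (hv : ∀ i, |pd i v x| ≤ b) : |ip g u v x| ≤ n ^ 2 * B * a * b := by
  have k : ∀ i j, |up g i j x * pd i u x * pd j v x| ≤ B * a * b := fun i j => by
    rw [abs_mul, abs_mul]
    have h0 := (abs_nonneg _).trans (h i j)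
    have h1 := (abs_nonneg _).trans (hu i)
    exact mul_le_mul (mul_le_mul (h i j) (hu i) (abs_nonneg _) h0) (hv j) (abs_nonneg _)
      (mul_nonneg h0 h1)
  refine (Finset.abs_sum_le_sum_abs _ _).trans ((Finset.sum_le_sum fun i _ =>
    (Finset.abs_sum_le_sum_abs _ _).trans (Finset.sum_le_sum fun j _ => k i j)).trans_eq ?_)
  simp only [Finset.sum_const, Finset.card_univ, Fintype.card_fin, nsmul_eq_mul]
  ring

theorem pdm {u v : M → ℝ} {x : M} {B a : ℝ} (hB : 1 ≤ B) (hu : DAt u x)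
    (hv : DAt v x) (u1 : 0 ≤ u x ∧ u x ≤ 1) (u2 : ∀ i, |pd i u x| ≤ B)
    (v1 : |v x| ≤ a) (v2 : ∀ i, |pd i v x| ≤ a) (i : Fin n) :
    |pd i (fun y => u y * v y) x| ≤ 2 * B * a := by
  rw [pd_mul hu hv]
  refine (abs_add_le _ _).trans ?_
  rw [abs_mul, abs_mul, abs_of_nonneg u1.1]
  have a0 := (abs_nonneg _).trans v1
  have h1 := mul_le_mul (u2 i) v1 (abs_nonneg _) (by linarith)
  have h2 := mul_le_mul (u1.2.trans hB) (v2 i) (abs_nonneg _) (by linarith)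
  linarith

theorem zone {X : Dat n M} {P : Pa} {N θ K₀ ε A K : ℝ} {ψ f : M → ℝ} (hX : X.Ok) (hP : P.Ok)
    (h : Jk X P N θ K₀ ε A K ψ f) (hε : ε ≤ 1) (hA : 1 ≤ A) {x : M} (h4 : X.R + 4 ≤ ‖px x‖)
    (h6 : ‖px x‖ ≤ X.R + 6) : |f x| ≤ ε ∧ (∀ i, |pd i f x| ≤ ε) ∧ |cp X P A f x| ≤ 2 * ε ∧
      (X.R + 5 ≤ ‖px x‖ → DAt (cp X P A f) x ∧ ∀ i, |pd i (cp X P A f) x| ≤ 2 * ε) := by
  obtain ⟨t1, t2⟩ := h.tiny x h4 h6
  obtain ⟨-, -, τ0, τ1, F1, -, p0, p1, -⟩ := hP.pos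
  have A2 : 1 ≤ A ^ 2 := one_le_pow₀ hA
  have t3 : ∀ i, A ^ 2 * |pd i f x| ≤ ε := fun i =>
    (mul_le_mul_of_nonneg_left (norm_le_pi_norm (D1 f x) i) (by positivity)).trans t2
  have f1 : |f x| ≤ ε := by nlinarith [abs_nonneg (f x)]
  have e : ∀ y, X.R + 4 ≤ ‖px y‖ → |f y| ≤ 4 * P.F₀ →
      cp X P A f y = P.τ * f y + P.p₁ * Real.arctan (A ^ 2 * f y) := fun y hy k => by
    rw [cp, cap, hP.Tl _ k, rc_zero (by linarith [hX.R1]) (by linarith), div_div_eq_mul_div,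
      div_one, mul_comm (f y)]
    ring
  refine ⟨f1, fun i => by nlinarith [t3 i, abs_nonneg (pd i f x)], ?_, fun h5 => ?_⟩
  · rw [e x h4 (by linarith)]
    refine (abs_add_le _ _).trans ?_
    have := atan (A ^ 2 * f x)
    rw [abs_mul, abs_of_nonneg (sq_nonneg A)] at this
    rw [abs_mul, abs_mul, abs_of_pos τ0, abs_of_pos p0]
    nlinarith [abs_nonneg (f x), abs_nonneg (Real.arctan (A ^ 2 * f x))]
  have ev : cp X P A f =ᶠ[𝓝 x] fun y => P.τ * f y + P.p₁ * Real.arctan (A ^ 2 * f y) := by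
    filter_upwards [ev_lt_px
      (show X.R + 4 < ‖px x‖ by linarith), h.sm.cont.abs.continuousAt.eventually (gt_mem_nhds
      (show |f x| < 4 * P.F₀ by linarith))] with y k k'
    exact e y k.le k'.le
  have hd : HasDerivAt (fun z => P.τ * z + P.p₁ * Real.arctan (A ^ 2 * z))
      (P.τ * 1 + P.p₁ * (1 / (1 + (A ^ 2 * f x) ^ 2) * (A ^ 2 * 1))) (f x) :=
    ((hasDerivAt_id' _).const_mul _).fun_add
      ((((hasDerivAt_id' _).const_mul _).arctan).const_mul _)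
  refine ⟨(hd.differentiableAt.compM (h.sm.diff x)).congr_of_eventuallyEq ev, fun i => ?_⟩
  have c1 : 1 / (1 + (A ^ 2 * f x) ^ 2) ≤ 1 :=
    (div_le_one (by positivity)).2 (by nlinarith [sq_nonneg (A ^ 2 * f x)])
  have c0 : 0 ≤ 1 / (1 + (A ^ 2 * f x) ^ 2) := by positivity
  rw [pd_congr ev, pd_comp hd (h.sm.diff x), abs_mul, abs_of_nonneg (by positivity)]
  have c2 : P.p₁ * (1 / (1 + (A ^ 2 * f x) ^ 2) * (A ^ 2 * 1)) ≤ A ^ 2 := by
    have := mul_le_one₀ p1 c0 c1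
    nlinarith
  have c3 : P.τ * 1 + P.p₁ * (1 / (1 + (A ^ 2 * f x) ^ 2) * (A ^ 2 * 1)) ≤ 2 * A ^ 2 := by linarith
  have := mul_le_mul_of_nonneg_right c3 (abs_nonneg (pd i f x))
  linarith [t3 i]

end Cut1

theorem cut1 : CUT1 := by
  intro n M _ X P s₁ B e hX hP hB he
  have B1 := hB.B1.1
  obtain ⟨N, hN⟩ : ∃ N : ℝ, N = n ^ 2 * B := ⟨_, rfl⟩
  have N0 : 0 ≤ N := by rw [hN]; positivity
  refine ⟨min 1 (e / (8 * N * B ^ 2 + 2)), by positivity,
    fun ε hε A hA N' θ K₀ K ψ f h x => ?_⟩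
  have e1 : ε ≤ 1 := hε.trans (min_le_left _ _)
  have e2 : ε * (8 * N * B ^ 2 + 2) ≤ e :=
    (le_div_iff₀ (by positivity)).1 (hε.trans (min_le_right _ _))
  have B2 : 1 ≤ B ^ 2 := one_le_pow₀ B1
  have up : ‖px x‖ ≤ X.R + 6 → ∀ i j, |up X.g i j x| ≤ B := fun k =>
    (hB.bd x (by linarith [hX.Rρ])).2.2.2.2
  have sm : ∀ c : ℝ, 0 ≤ ε → 0 ≤ c → c ≤ 8 * B ^ 2 → 2 * ε ≤ e ∧ N * c * ε * ε ≤ e :=
    fun c e0 c0 c1 => by
      have k1 : 0 ≤ ε * (N * B ^ 2) := by positivity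
      have k2 : N * c * ε * ε ≤ N * c * ε := mul_le_of_le_one_right (by positivity) e1
      have k3 : N * c * ε ≤ N * (8 * B ^ 2) * ε := by gcongr
      exact ⟨by linarith, by linarith⟩
  refine ⟨fun h4 h6 => ?_, fun h5 => ?_⟩
  · obtain ⟨z1, z2, z3, -⟩ := Cut1.zone hX hP h e1 hA h4 h6
    obtain ⟨s1, s2⟩ := sm 1 ((abs_nonneg _).trans z1) zero_le_one (by linarith)
    have := (le_abs_self _).trans (Cut1.ipb (up h6) z2 z2)
    rw [← hN] at this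
    exact ⟨z3.trans s1, by linarith⟩
  rcases le_or_gt ‖px x‖ (X.R + 6) with h6 | h6
  · obtain ⟨z1, z2, z3, z4⟩ := Cut1.zone hX hP h e1 hA (by linarith) h6
    obtain ⟨z4, z5⟩ := z4 h5
    have e0 := (abs_nonneg _).trans z1
    have c := fun i => (hB.cut x i i).1
    have d := (sm_rc (X.R + 5)).diff x
    have m := rc_mem (X.R + 5) x
    have q1 := Cut1.pdm B1 d (h.sm.diff x) m c z1 z2
    have q2 := Cut1.pdm B1 d z4 m c z3 z5
    have r1 : |ip X.g (fh X f) (fh X f) x| ≤ _ := Cut1.ipb (up h6) q1 q1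
    have r2 : |ip X.g (Tt X P A f) (fh X f) x| ≤ _ := Cut1.ipb (up h6) q2 q1
    rw [← hN] at r1 r2
    obtain ⟨s1, s2⟩ := sm (4 * B ^ 2) e0 (by positivity) (by linarith)
    obtain ⟨-, s3⟩ := sm (8 * B ^ 2) e0 (by positivity) le_rfl
    refine ⟨by linarith [le_abs_self (ip X.g (fh X f) (fh X f) x)], ?_,
      by linarith [neg_abs_le (ip X.g (Tt X P A f) (fh X f) x)]⟩
    rw [Tt, abs_mul, abs_of_nonneg m.1]
    exact (mul_le_of_le_one_left (abs_nonneg _) m.2).trans (z3.trans s1)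
  · have R0 : 0 ≤ X.R + 5 := by linarith [hX.R1]
    have ev := HbH.fh_ev hX f h6
    rw [ip_congr EventuallyEq.rfl ev, ip_congr EventuallyEq.rfl ev, ip_const_right, ip_const_right,
      Tt, rc_zero R0 (by linarith), zero_mul, abs_zero]
    exact ⟨he.le, he.le, by linarith⟩

end Vale.Agent.P366M.Y.D
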