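import Vale.Agent.P366Q.D.Defs
import Vale.Agent.P366Q.D.Hb
import Vale.Agent.P366Y.D.Cut2

/-!
# P366Q, block D on manifolds: the trace of the Hessian in the zone of the cut
-/

open MeasureTheory Metric Filter Topology Set
open scoped ContDiff ENNReal
open Vale.Agent.P366 Vale.Agent.P366.Stmt Vale.Agent.P366Z Vale.Agent.P366Y
open Vale.Agent.P366M.Y.C (ex er gt ww b2 Tst)
open Vale.Agent.P366M.Y.J (Jk Cx)
open Vale.Agent.P366Y.J (io)
open Vale.Agent.P366Y.D (dz)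
open Vale.Agent.P366Y.D.Cut2H (s1 m2 a2 d2 atan gs2 om2)

noncomputable section

namespace Vale.Agent.P366M.Y.D

/-- row CUT2 -/
theorem cut2 : CUT2 := by
  refine ⟨0, fun n M _ X P s₁ B K₀ e hC hB he => ?_⟩
  obtain ⟨-, p2, p3, p4, p5, -, p7, p8, -⟩ := hC.hP.pos
  have B1 := hB.B1.1
  have R1 := hC.hX.R1
  have hg := mg hC.hX
  obtain ⟨σ, hσ⟩ : ∃ σ : ℝ, σ = |K₀| + n * B := ⟨_, rfl⟩
  obtain ⟨ρ, hρ⟩ : ∃ ρ : ℝ, ρ = B + B + B := ⟨_, rfl⟩
  have σ0 : 0 ≤ σ := by rw [hσ]; positivity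
  have ρ0 : 0 ≤ ρ := by rw [hρ]; positivity
  obtain ⟨Q, hQ⟩ : ∃ Q : ℝ, Q = 2 * (1 + n * (n * B)) + 4 * P.L * n ^ 4 * B ^ 2 * σ +
    n ^ 2 * B * ρ + P.L * n ^ 4 * (B * (B + 1)) ^ 2 * (σ + ρ) := ⟨_, rfl⟩
  have Q0 : 0 < Q := by rw [hQ]; positivity
  refine ⟨min 1 (e / Q), by positivity, fun ε hε A hA N θ K ψ f hψ h x hx lam hl => ?_⟩
  by_cases hx' : ‖px x‖ ≤ X.R + 6
  swap
  · have e2 : ∀ i j, hess X.g (fh X f) x i j = 0 := fun i j => by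
      rw [hess_congr (HbH.fh_ev hC.hX f (not_le.1 hx')), hess_const]
    simp [gt, tr, b2, e2, he.le]
  obtain ⟨t1, t2⟩ := h.tiny x (by linarith) hx'
  have A2 : 1 ≤ A ^ 2 := one_le_pow₀ hA
  have ε0 : 0 ≤ ε := le_trans (by positivity) t1
  have ε1 : ε ≤ 1 := hε.trans (min_le_left _ _)
  obtain ⟨δ, hδ⟩ : ∃ δ : ℝ, δ = ε / A ^ 2 := ⟨_, rfl⟩
  have δ0 : 0 ≤ δ := by rw [hδ]; positivity
  have w1 : δ ≤ ε := hδ ▸ div_le_self ε0 A2
  have δ1 : δ ≤ 1 := w1.trans ε1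
  have δA : δ ≤ A := δ1.trans hA
  have w2 : δ * δ * A ≤ ε := by
    refine (mul_le_mul_of_nonneg_right (mul_le_mul_of_nonneg_left δA δ0) (by positivity)).trans_eq ?_
    rw [hδ]
    field_simp
  have hz : |f x| ≤ δ := by rw [hδ, le_div_iff₀' (by positivity)]; exact t1
  have hp : ∀ i, |pd i f x| ≤ δ := fun i => (norm_le_pi_norm (D1 f x) i).trans (by
    rw [hδ, le_div_iff₀' (by positivity)]; exact t2)
  obtain ⟨-, -, -, hΓ, hu⟩ := hB.bd x (by linarith [hC.hX.Rρ])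
  have hd : ∀ i, |pd i (rc (X.R + 5)) x| ≤ B := fun i => (hB.cut x i i).1
  have hχ : ∀ r, |rc r x| ≤ 1 := fun r => abs_le.2 ⟨by linarith [(rc_mem r x).1], (rc_mem r x).2⟩
  have hS : ∀ i j, |hess X.g f x i j| ≤ σ * A := fun i j => by
    rw [HbH.hess_eq]
    refine (d2 (c := |K₀| * A) (((norm_le_pi_norm (D2 f x i) j).trans (norm_le_pi_norm (D2 f x) i)).trans
      ((h.d2 x).trans (by gcongr; exact le_abs_self _))) (s1 fun k => m2 (hΓ k i j) (hp k))).trans ?_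
    rw [hσ, add_mul, mul_assoc]
    gcongr
  have hr : ∀ i, |rs X.g x (D1 f x) i| ≤ n * (B * δ) := fun i => s1 fun j => m2 (hu i j) (hp j)
  have t0 := hg.ip_nonneg f x
  have ht : ip X.g f f x ≤ n * (n * B) := (le_abs_self _).trans
    ((s1 fun i => s1 fun j => m2 (m2 (hu i j) ((hp i).trans δ1)) ((hp j).trans δ1)).trans_eq
      (by ring))
  have hcap : |cap X P (1 / A ^ 2) x (f x)| ≤ 1 * ε + 1 * ε := by
    rw [cap, hC.hP.Tl _ (by linarith), rc_zero (by linarith) (by linarith), zero_mul, zero_add,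
      sub_zero, one_mul P.p₁]
    refine a2 (m2 ((abs_of_pos p3).trans_le p4) (hz.trans w1))
      (m2 ((abs_of_pos p7).trans_le p8) ((atan _).trans ?_))
    rwa [one_div, div_inv_eq_mul, abs_mul, abs_of_pos (by positivity : 0 < A ^ 2), mul_comm]
  have q := h.eqn x (by linarith)
  rw [hC.hX.K0 x (by linarith), hψ.two x hx, show pr2 (ag X P ψ x (D1 f x)) 0 = 0 by simp [pr2],
    zero_add] at q
  have h1 : tr X.g (hess X.g f) x = P.om 2 (ip X.g f f x) * cap X P (1 / A ^ 2) x (f x) +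
      ∑ i, ∑ j, rc (X.R + 7) x * P.Gs 2 (ip X.g f f x) * rs X.g x (D1 f x) i *
        rs X.g x (D1 f x) j * hess X.g f x i j := by
    rw [← q, ← hψ.two x hx]
    simp only [pr2, ag, sub_mul, Finset.sum_sub_distrib]
    exact (sub_add_cancel _ _).symm
  have h2 := h1 ▸ a2 (m2 ((om2 P t0).trans (add_le_add_right ht 1)) hcap) (s1 fun i => s1 fun j =>
    m2 (m2 (m2 (m2 (hχ (X.R + 7)) (gs2 P (by linarith) t0)) (hr i)) (hr j)) (hS i j))
  have sχ := sm_rc (M := M) (X.R + 5)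
  obtain ⟨T, hT, e3⟩ : ∃ T : Mx n, (∀ i j, |T i j| ≤ ρ * δ) ∧ ∀ i j,
      hess X.g (fh X f) x i j = rc (X.R + 5) x * hess X.g f x i j + T i j :=
    ⟨_, fun i j => (a2 (m2 hz (hB.cut x i j).2) (a2 (m2 (hd i) (hp j)) (m2 (hp i) (hd j)))).trans_eq
      (by rw [hρ]; ring), fun i j => (hess_mul (sχ.c2 x) (h.sm.c2 x) i j).trans (add_assoc _ _ _)⟩
  have h3 : tr X.g (hess X.g (fh X f)) x =
      rc (X.R + 5) x * tr X.g (hess X.g f) x + ∑ i, ∑ j, up X.g i j x * T i j := by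
    simp only [tr, e3, mul_add, Finset.sum_add_distrib, Finset.mul_sum,
      mul_left_comm (rc (X.R + 5) x)]
  have h4 := h3 ▸ a2 (m2 (hχ (X.R + 5)) h2) (s1 fun i => s1 fun j => m2 (hu i j) (hT i j))
  have h5 : ∀ i j, |hess X.g (fh X f) x i j| ≤ (σ + ρ) * A := fun i j => by
    rw [e3, add_mul]
    exact a2 ((m2 (hχ _) (hS i j)).trans_eq (one_mul _)) ((hT i j).trans (by gcongr))
  have h6 : ∀ i, |gr X.g (fh X f) i x| ≤ n * (B * (B * δ + 1 * δ)) := fun i => s1 fun j =>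
    m2 (hu i j) ((congrArg abs (pd_mul (sχ.diff x) (h.sm.diff x) j)).trans_le
      (a2 (m2 (hd j) hz) (m2 (hχ _) (hp j))))
  have h7 := m2 ((abs_of_nonneg hl.1).trans_le hl.2)
    (s1 fun i => s1 fun j => m2 (m2 (h5 i j) (h6 i)) (h6 j))
  have t3 : 1 ≤ 1 + lam * ip X.g (fh X f) (fh X f) x :=
    le_add_of_nonneg_right (mul_nonneg hl.1 (hg.ip_nonneg _ x))
  refine (d2 h4 (((abs_div _ _).trans_le (div_le_self (abs_nonneg _)
    (t3.trans (le_abs_self _)))).trans h7)).trans ?_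
  calc _ = 2 * (1 + n * (n * B)) * ε + 4 * P.L * n ^ 4 * B ^ 2 * σ * (δ * δ * A) +
        n ^ 2 * B * ρ * δ + P.L * n ^ 4 * (B * (B + 1)) ^ 2 * (σ + ρ) * (δ * δ * A) := by ring
    _ ≤ 2 * (1 + n * (n * B)) * ε + 4 * P.L * n ^ 4 * B ^ 2 * σ * ε +
        n ^ 2 * B * ρ * ε + P.L * n ^ 4 * (B * (B + 1)) ^ 2 * (σ + ρ) * ε := by gcongr
    _ = Q * ε := by rw [hQ]; ring
    _ ≤ e := (le_div_iff₀' Q0).1 (hε.trans (min_le_right _ _))

end Vale.Agent.P366M.Y.D
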