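import Vale.Agent.P366Q.D.Defs
import Vale.Agent.P366Y.D.Gau

/-!
# P366Q, block D on manifolds: the defect of the gauge
-/

open MeasureTheory Metric Filter Topology Set
open scoped ContDiff ENNReal
open Vale.Agent.P366 Vale.Agent.P366.Stmt Vale.Agent.P366Z Vale.Agent.P366Y
open Vale.Agent.P366M.Y.C (ex er gt ww b2 Tst)
open Vale.Agent.P366M.Y.J (Jk Cx)
open Vale.Agent.P366Y.J (io)
open Vale.Agent.P366Y.D (dz)
open Vale.Agent.P366Y.D.GauX (sc low)

noncomputable section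

namespace Vale.Agent.P366M.Y.D

namespace GauX

variable {n : ℕ} {M : Type} [Mfe n M]

/-- the matrix `g⁻¹ - c p p` -/
def am (g : Fld n M) (x : M) (c : ℝ) (p : Vc n) : Mx n := fun i j =>
  up g i j x - c * rs g x p i * rs g x p j

theorem ag_eq (X : Dat n M) (P : Pa) (ψ : M → ℝ) (x : M) (p : Vc n) :
    ag X P ψ x p = am X.g x (rc (X.R + 7) x * P.Gs (ψ x) (sq X.g x p)) p := rfl

theorem alg {g T : Fld n M} (hg : Met g) (x : M) {c : ℝ} (p : Vc n) (c0 : 0 ≤ c)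
    (c1 : c * sq g x p ≤ 1) (hT : ∀ x i j, T x i j = T x j i) :
    pr2 (am g x c p) (T x) ^ 2 ≤ n * normSq g T x := by
  have e1 : P366Y.sq (rep (ch x) g) (pt x) p = sq g x p := by
    simp only [P366Y.sq, sq, up_pt]
  have e2 : P366Y.J.am (rep (ch x) g) (pt x) c p = am g x c p := by
    funext i j
    simp only [P366Y.J.am, am, P366Y.rs, rs, up_pt]
  have k := ((P366Y.J.alg n (rep (ch x) g) (pt x) c p (hg.loc' x) c0 (e1 ▸ c1)).2.2.2.2.2
    (rep (ch x) T) (rep_sy hT _ _)).1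
  rwa [e2, rep_pt, normSq_pt] at k

theorem gt_eq (g T : Fld n M) (f : M → ℝ) (x : M) {l c : ℝ}
    (h : l / (1 + l * ip g f f x) = c) : gt g T f l x = pr2 (am g x c (D1 f x)) (T x) := by
  rw [gt, mul_div_right_comm, h]
  simp only [pr2, am, tr, b2, sub_mul, Finset.sum_sub_distrib, Finset.mul_sum]
  refine congrArg _ (Finset.sum_congr rfl fun i _ => Finset.sum_congr rfl fun j _ => ?_)
  show c * (T x i j * gr g f i x * gr g f j x) = c * gr g f i x * gr g f j x * T x i j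
  ring

end GauX

open GauX

/-- **GAU** -/
theorem gau : GAU := by
  obtain ⟨C, C1, hG⟩ := P366Y.J.ga
  refine ⟨24 * C, fun n M _ X P hC N θ K₀ ε A K ψ f φ x hJ hx p1 p2 p3 => ?_⟩
  have hP := hC.hP
  obtain ⟨l1, hL, τ0, τ1, -, hM, -, -, hK⟩ := hP.pos
  obtain ⟨φ0, φ1⟩ := hP.φ0
  have t0 : 0 ≤ ip X.g f f x := (mg hC.hX).ip_nonneg f x
  have ga := hG P hP (P366Y.J.big_mono hP hC.big (by linarith)) (ψ x) ⟨p1.trans p2, p3⟩ _ t0
  have y0 : 0 < ψ x := φ0.trans_le (p1.trans p2)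
  have b1 : 0 < 1 + 4 * P.L * ip X.g f f x := by positivity
  have i0 : 0 < io P (ψ x) (ip X.g f f x) := lt_of_lt_of_le (by positivity) ga.io1
  have e1 : 1 + li X P ψ f x * ip X.g f f x = (io P (ψ x) (ip X.g f f x))⁻¹ := by
    rw [li]
    field_simp
    rw [io]
    ring
  have e2 : ip X.g f f x ≤ P.M₀ ^ 2 → li X P ψ f x = P.L * ψ x ^ 2 := fun h => by
    have : 0 < 1 + P.L * ψ x ^ 2 * ip X.g f f x := by positivity
    rw [li, div_eq_iff i0.ne', io, (low hP y0 t0 h).1]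
    field_simp
    ring
  have e3 : li X P ψ f x / (1 + li X P ψ f x * ip X.g f f x) = P.Gs (ψ x) (ip X.g f f x) := by
    rw [e1, div_inv_eq_mul, li, div_mul_cancel₀ _ i0.ne']
  have e4 : ∀ T, gt X.g T f (li X P ψ f x) x = pr2 (ag X P ψ x (D1 f x)) (T x) := fun T => by
    rw [gt_eq _ _ _ _ e3, ag_eq, rc_one (by linarith [hC.hX.R1]) hx, one_mul]
    rfl
  have b2 := hC.big.b1
  have b3 : φ x ^ 2 ≤ ψ x ^ 2 := pow_le_pow_left₀ (φ0.le.trans p1) p2 2
  have W0 : 0 < ww X.g φ f x := Real.sqrt_pos.2 (by positivity)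
  obtain ⟨q1, q2, q3⟩ := sc φ0 p1 p2 t0 ga.om0 ga.om1 ga.om2 W0 (Real.sq_sqrt (by positivity))
  refine ⟨le_trans (mul_le_mul_of_nonneg_left b3 (by positivity)) ?_, e1, ?_, e2, ?_, _, q1, q2,
    fun h => q3 (low hP y0 t0 h).2, ?_⟩
  · rcases le_total (ip X.g f f x) (P.M₀ ^ 2) with h | h
    · rw [e2 h]
      exact mul_le_mul_of_nonneg_right (by nlinarith) (sq_nonneg _)
    have t1 : 0 < ip X.g f f x := lt_of_lt_of_le (by positivity) h
    have big : 24 * C * P.L ≤ P.L * ψ x ^ 2 * ip X.g f f x := by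
      refine hC.big.b3.trans ?_
      calc P.η * P.τ * P.φ₀ ^ 4 * P.M₀ ≤ 1 * P.L * P.φ₀ ^ 2 * P.M₀ ^ 2 := by
            have e1 : P.φ₀ ^ 4 ≤ P.φ₀ ^ 2 := pow_le_pow_of_le_one φ0.le φ1 (by norm_num)
            have e2 : P.M₀ ≤ P.M₀ ^ 2 := le_self_pow₀ hM two_ne_zero
            have e3 : P.η ≤ 1 := by linarith only [hP.η0.2]
            have e4 := τ1.trans hL
            exact mul_le_mul (mul_le_mul (by gcongr) e1 (by positivity) (by positivity)) e2
              (by positivity) (by positivity)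
        _ ≤ _ := by
            rw [one_mul]
            have := p1.trans p2
            gcongr
    have k1 : 1 + P.L * ψ x ^ 2 * ip X.g f f x ≤ C * (1 + li X P ψ f x * ip X.g f f x) := by
      rw [e1, ← div_eq_mul_inv, le_div_iff₀ i0, mul_comm]
      exact ga.io2
    have k2 : 24 * C * P.lam * ψ x ^ 2 * ip X.g f f x ≤ P.L * ψ x ^ 2 * ip X.g f f x := by gcongr
    have k3 : 24 * C ≤ 24 * C * P.L := le_mul_of_one_le_right (by positivity) hL
    refine le_of_mul_le_mul_right (a := C * ip X.g f f x) ?_ (by positivity)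
    linarith
  · rw [e1, inv_le_comm₀ i0 b1, ← one_div]
    exact ga.io1
  · rw [gt_eq _ _ _ _ e3]
    refine abs_le_of_sq_le_sq ?_ (by linarith)
    refine (alg (mg hC.hX) x (D1 f x) ga.Gs0 ?_ hC.hX.syK).trans (hC.fo.2 x)
    show _ * ip X.g f f x ≤ 1
    rw [io] at i0
    linarith
  · rw [er, e4, e4, hJ.eqn x hx, cp]
    ring

end Vale.Agent.P366M.Y.D
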