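import Vale.Agent.P366Q.D.Defs
import Vale.Agent.P366Y.D.Geo

/-!
# P366Q, block D on manifolds: the terms that do not depend on the conformal factor
-/

open MeasureTheory Metric Filter Topology Set
open scoped ContDiff ENNReal
open Vale.Agent.P366 Vale.Agent.P366.Stmt Vale.Agent.P366Z Vale.Agent.P366Y
open Vale.Agent.P366M.Y.C (ex er gt ww b2 Tst)
open Vale.Agent.P366M.Y.J (Jk Cx)
open Vale.Agent.P366Y.J (io)
open Vale.Agent.P366Y.D (dz)
open Vale.Agent.P366Y.D.GeoH (atan low z1 z2 y1 y2 sig)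

noncomputable section

namespace Vale.Agent.P366M.Y.D

namespace GeoH

variable {n : ℕ} {M : Type} [Mfe n M]

/-- the weight -/
def wq (X : Dat n M) (P : Pa) (y : M) : ℝ :=
  rc (X.R + 3) y * X.p y + (1 - rc (X.R + 3) y) * P.p₁

theorem sm_wq {X : Dat n M} (hX : X.Ok) (P : Pa) : Smooth (wq X P) :=
  CD.add (CD.mul (sm_rc _) hX.smp) (CD.mul (CD.sub cd_const (sm_rc _)) cd_const)

theorem ip_cp {X : Dat n M} {P : Pa} (hX : X.Ok) (hP : P.Ok) (A : ℝ) {f : M → ℝ} (hf : Smooth f)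
    (x : M) : ip X.g (cp X P A f) f x =
      (deriv P.T₁ (f x) + wq X P x * (1 / (1 + (f x / (1 / A ^ 2)) ^ 2) * (1 / (1 / A ^ 2)))) *
        ip X.g f f x + Real.arctan (f x / (1 / A ^ 2)) * ip X.g (wq X P) f x := by
  refine ip_of_pd_add fun i => ?_
  have h1 := (hP.smT.differentiable (by simp) (f x)).hasDerivAt
  have h2 : HasDerivAt (fun z => Real.arctan (z / (1 / A ^ 2)))
      (1 / (1 + (f x / (1 / A ^ 2)) ^ 2) * (1 / (1 / A ^ 2))) (f x) :=
    ((hasDerivAt_id' (f x)).div_const (1 / A ^ 2)).arctan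
  have d1 := h1.differentiableAt.compM (hf.diff x)
  have d2 := h2.differentiableAt.compM (hf.diff x)
  have k1 := pd_add d1 (((sm_wq hX P).diff x).mul d2) i
  have k2 := pd_mul ((sm_wq hX P).diff x) d2 i
  have k3 := pd_comp h1 (hf.diff x) i
  have k4 := pd_comp h2 (hf.diff x) i
  refine k1.trans ?_
  rw [k3, k2, k4]
  ring

theorem mom_le {g : Fld n M} (hg : Met g) (w : Fin n → M → ℝ) (f : M → ℝ) (x : M) :
    ∑ j, w j x * gr g f j x ≤ covNorm g w x * gn g f x := by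
  have k := hg.up_cs x (fun j => w j x) fun j => pd j f x
  have e : ∑ j, w j x * gr g f j x = ∑ i, ∑ j, up g i j x * w i x * pd j f x := by
    simp only [gr, Finset.mul_sum]
    exact Finset.sum_congr rfl fun i _ => Finset.sum_congr rfl fun j _ => by ring
  rw [e, covNorm, gn, ← Real.sqrt_mul (hg.up_nonneg x _)]
  exact Real.le_sqrt_of_sq_le k

end GeoH

open GeoH in
/-- **GEO** -/
theorem geo : GEO := by
  intro n M _ s₁ B
  refine ⟨4 * B / s₁, (B + 4) ^ 2, sq_nonneg _, fun X P hC hB => ?_⟩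
  have hX := hC.hX
  have hP := hC.hP
  have hg := mg hX
  have R1 := hX.R1
  have Rρ := hX.Rρ
  obtain ⟨s0, s1⟩ := hB.s0
  obtain ⟨-, -, p3, -, p5, -, p7, -⟩ := hP.pos
  obtain ⟨D, hD⟩ := (isCompact_px M (X.R + 5)).bddAbove_image
    (hg.sm_ip (sm_wq hX P) (sm_wq hX P)).cont.sqrt.continuousOn
  refine ⟨max 1 (4 * (2 * D + B) ^ 2 / (P.p₁ * s₁)), fun A hA N θ K₀ ε K ψ f hf x hx φ W φ0 φ2 W0
    hW => ?_⟩
  have A1 : 1 ≤ A := (le_max_left _ _).trans hA
  have A2 : 4 * (2 * D + B) ^ 2 ≤ A * (P.p₁ * s₁) :=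
    (div_le_iff₀ (by positivity)).1 ((le_max_right _ _).trans hA)
  have r := rc_mem (X.R + 3) x
  have q0 : 0 ≤ wq X P x := add_nonneg (mul_nonneg r.1 (hX.pb x).1)
    (mul_nonneg (sub_nonneg.2 r.2) p7.le)
  have hI := low (hP.Td (f x)) (hg.ip_nonneg f x) (gn_nonneg X.g f x) (atan _)
    (hg.abs_ip_le (wq X P) f x) (ip_cp hX hP A hf.sm x) (mom_le hg (mom X.g X.K) f x)
  rw [← hg.gn_sq f x] at hI hW ⊢
  obtain ⟨b1, b2, b3, -⟩ := hB.bd x (by linarith)
  have J0 : 0 ≤ covNorm X.g (mom X.g X.K) x := Real.sqrt_nonneg _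
  have d0 : 0 ≤ (B + 4) ^ 2 * dz P (f x) :=
    mul_nonneg (sq_nonneg _) (Real.smoothTransition.nonneg _)
  rcases le_total ‖px x‖ (X.R + 2) with k | k
  · have e1 : wq X P =ᶠ[𝓝 x] X.p := by
      filter_upwards [ev_px_lt (show ‖px x‖ < X.R + 3 by linarith)] with y hy
      rw [GeoH.wq, rc_one (by linarith) (le_of_lt hy)]; ring
    rw [gn_congr e1] at hI
    refine z1 φ0 W0 hW (gn_nonneg _ _ _) (by linarith [gn_nonneg X.g X.p x])
      (mul_nonneg q0 (by positivity)) hI ?_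
    rcases le_or_gt P.F₀ |f x| with k' | k'
    · have e2 : dz P (f x) = 1 := Real.smoothTransition.one_of_one_le (by
        have := pow_le_pow_left₀ (by linarith) k' 2
        rw [sq_abs] at this
        rw [le_sub_iff_add_le, le_div_iff₀ (by positivity)]
        nlinarith)
      rw [e2]
      exact y1 s1 b1 (hB.Kb x).2 b3 b2
    · have e2 : 0 ≤ X.F x := le_of_not_ge fun c => by linarith [hf.inn x c, le_abs_self (f x)]
      refine y2 (c := P.τ * P.F₀) (hB.Kb x).2 ?_ (by positivity) ?_ s0 d0 (hB.dec x e2 k)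
      · show |P.T₁ (f x) + wq X P x * Real.arctan (f x / (1 / A ^ 2))| ≤ _
        refine (abs_add_le _ _).trans (add_le_add ?_ ?_)
        · rw [hP.Tl _ (by linarith), abs_mul, abs_of_pos p3]
          exact mul_le_mul_of_nonneg_left k'.le p3.le
        · rw [abs_mul, abs_of_nonneg q0, e1.self_of_nhds, mul_comm 2]
          exact mul_le_mul_of_nonneg_left (atan _) (hX.pb x).1
      · have := hC.big.b2
        rwa [div_mul_eq_mul_div, div_le_one s0] at this
  · have e1 : P.p₁ ≤ wq X P x := by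
      rw [GeoH.wq, (hX.pout x (by linarith)).1]
      linarith [mul_nonneg r.1 (sub_nonneg.2 hC.fo.1)]
    have e2 := sig A1 (hf.out x (by linarith))
    have e3 := mul_le_mul e1 e2 (by linarith) q0
    have e4 : gn X.g (wq X P) x ≤ D := hD ⟨x, hx, rfl⟩
    have e5 := gn_nonneg X.g (wq X P) x
    have e6 : (2 * gn X.g (wq X P) x + covNorm X.g (mom X.g X.K) x) ^ 2 ≤ (2 * D + B) ^ 2 :=
      pow_le_pow_left₀ (by linarith) (by linarith) 2
    refine z2 φ0 φ2 W0 hW s0 (lt_of_lt_of_le (by positivity) e3) ?_ hI ?_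
    · have := mul_le_mul_of_nonneg_right e3 s0.le
      linarith
    · have := hB.dec' x k (by linarith)
      linarith [sq_nonneg (cp X P A f x + tr X.g X.K x), add_sq (cp X P A f x) (tr X.g X.K x)]

end Vale.Agent.P366M.Y.D
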