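import Vale.Agent.P366Q.D.Defs
import Vale.Agent.P366Q.D.Hb
import Vale.Agent.P366Y.D.Gout

/-!
# P366Q, block D on manifolds: the pointwise estimates in the zone of the cut and outside
-/

open MeasureTheory Metric Filter Topology Set
open scoped ContDiff ENNReal
open Vale.Agent.P366 Vale.Agent.P366.Stmt Vale.Agent.P366Z Vale.Agent.P366Y
open Vale.Agent.P366M.Y.C (ex er gt ww b2 Tst)
open Vale.Agent.P366M.Y.J (Jk Cx)
open Vale.Agent.P366Y.J (io)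
open Vale.Agent.P366Y.D (dz)
open Vale.Agent.P366Y.D.Gout (it1 sc er_le)

noncomputable section

namespace Vale.Agent.P366M.Y.D

namespace Gout

variable {n : ℕ} {M : Type} [Mfe n M]

theorem k0 {X : Dat n M} (hX : X.Ok) {x : M} (hx : X.R + 5 ≤ ‖px x‖) :
    tr X.g X.K x = 0 ∧ 2 * mu X.g X.K x = scal X.g x ∧ (∀ j, mom X.g X.K j x = 0) ∧
      ∀ f lam, gt X.g X.K f lam x = 0 := by
  have ev : ∀ᶠ y in 𝓝 x, X.K y = 0 :=
    (ev_lt_px (show X.R + 3 < ‖px x‖ by linarith)).mono fun y hy => hX.K0 y hy.le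
  have e0 := ev.self_of_nhds
  refine ⟨by simp [tr, e0], ?_, fun j => ?_, fun f lam => by simp [gt, tr, b2, e0]⟩
  · simp only [mu, tr, normSq, e0, Pi.zero_apply, mul_zero, Finset.sum_const_zero]
    ring
  · rw [mom_of_ev (g' := X.g) (T' := fun _ => 0) EventuallyEq.rfl ev]
    have e : rep (ch x) (fun _ => 0 : Fld n M) = fun _ _ _ => 0 := by
      funext y i j
      simp [rep]
    simp [mom, e, Stmt.mom, Stmt.momT, Stmt.tr, P366Z.pd_const]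

theorem far {X : Dat n M} (hX : X.Ok) (f : M → ℝ) {x : M} (hx : X.R + 7 ≤ ‖px x‖) :
    rc (X.R + 5) x = 0 ∧ (∀ T, ip X.g T (fh X f) x = 0) ∧
      ∀ lam, gt X.g (hess X.g (fh X f)) (fh X f) lam x = 0 := by
  have r0 : 0 ≤ X.R + 5 := by linarith [hX.R1]
  have ev := HbH.fh_ev hX f (show X.R + 6 < ‖px x‖ by linarith)
  have e2 : ∀ i, pd i (fh X f) x = 0 := fun i => by rw [pd_congr ev, pd_const]
  have e3 : ∀ i j, hess X.g (fh X f) x i j = 0 := fun i j => by rw [hess_congr ev, hess_const]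
  exact ⟨rc_zero r0 (by linarith), fun T => by simp [ip, e2],
    fun lam => by simp [gt, tr, b2, e3]⟩

theorem flo_le {X : Dat n M} {P : Pa} {C cY : ℝ} {ψ f : M → ℝ} {x : M} (c0 : 0 ≤ cY)
    (t0 : 0 ≤ ip X.g f f x) (L0 : 0 ≤ P.L) (t1 : 4 * P.L * ip X.g f f x ≤ 1)
    (h : P366Y.J.Ga P C (ψ x) (ip X.g f f x)) : flo X P cY ψ f x ≤ 3 * cY := by
  obtain ⟨r0, r1⟩ := rc_mem (X.R + 7) x
  have h1 : 1 / 2 ≤ 1 / (1 + 4 * P.L * ip X.g f f x) :=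
    one_div_le_one_div_of_le (by positivity) (by linarith)
  have h2 := h1.trans h.io1
  have h3 : 1 / 2 ≤ 1 - rc (X.R + 7) x * P.Gs (ψ x) (ip X.g f f x) * ip X.g f f x := by
    simp only [io] at h2
    linarith [mul_nonneg (sub_nonneg.2 r1) (mul_nonneg h.Gs0 t0)]
  have h4 : 1 ≤ 1 + (rc (X.R + 6) x * P.φ₀) ^ 2 * ip X.g f f x :=
    le_add_of_nonneg_right (by positivity)
  have h5 := inv_anti₀ (by norm_num) (mul_le_mul h3 h4 zero_le_one (by linarith))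
  have h6 := mul_le_mul_of_nonneg_left h5 c0
  simp only [flo]
  norm_num at h6 ⊢
  linarith

theorem lam_le {X : Dat n M} {P : Pa} (hP : P.Ok) {σ A₂ cY um A' F : ℝ} {ψ f : M → ℝ} {x : M}
    (z : ℝ) (a0 : 0 ≤ A₂) (a1 : 0 ≤ A') (hF : flo X P cY ψ f x ≤ F) :
    Lam X P ⟨σ, A₂, cY, um, A'⟩ ψ f x z ≤
      rc (X.R + 7) x * σ + (1 - rc (X.R + 7) x) * scal X.g x + F * (rc X.ρ x * P.βf z) := by
  obtain ⟨b0, b1⟩ := hP.βb z
  have r0 := (rc_mem X.ρ x).1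
  simp only [Lam]
  linarith [mul_nonneg r0 (mul_nonneg a1 (Real.smoothTransition.nonneg (z - um))),
    mul_nonneg (mul_nonneg a0 (Real.smoothTransition.nonneg (4 * f x ^ 2 / P.F₀ ^ 2 - 1)))
      (sub_nonneg.2 b1), mul_nonneg (mul_nonneg r0 b0) (sub_nonneg.2 hF)]

theorem low {X : Dat n M} {P : Pa} {s₁ B C A₂ cY um A' A e : ℝ} {ψ f u : M → ℝ} {x : M}
    (hX : X.Ok) (hP : P.Ok) (hB : Bk X s₁ B) (a0 : 0 ≤ A₂) (a1 : 0 ≤ A') (c0 : 0 ≤ cY)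
    (e0 : 0 ≤ e) (e1 : 64 * e ≤ s₁) (e2 : 4 * P.L * e ≤ 1) (hx : X.R + 5 ≤ ‖px x‖)
    (hg : P366Y.J.Ga P C (ψ x) (ip X.g (fh X f) (fh X f) x)) (h1 : ip X.g (fh X f) (fh X f) x ≤ e)
    (h2 : |Tt X P A f x| ≤ e) (h3 : -e ≤ ip X.g (Tt X P A f) (fh X f) x)
    (h4 : |gt X.g (hess X.g (fh X f)) (fh X f) P.L x| ≤ e) :
    -(2 * P.φ (u x) * (3 * cY * (rc X.ρ x * P.βf (u x))) * u x ^ 2) ≤
      exs X P ⟨s₁ / 8, A₂, cY, um, A'⟩ A ψ f u x := by
  obtain ⟨k1, k2, k3, k4⟩ := k0 hX hx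
  obtain ⟨s0, s1⟩ := hB.s0
  have L0 : 0 ≤ P.L := by linarith [hP.pos.2.1]
  have t0 := (mg hX).ip_nonneg (fh X f) x
  have p0 : 0 < P.φ (u x) := hP.φ0.1.trans_le (hP.φb _).1
  have p2 := (hP.φb (u x)).2
  have tL : 4 * P.L * ip X.g (fh X f) (fh X f) x ≤ 1 := le_trans (by gcongr) e2
  have hL := lam_le (σ := s₁ / 8) (um := um) hP (u x) a0 a1 (flo_le c0 t0 L0 tL hg)
  have W1 : 1 ≤ ww X.g (fun y => P.φ (u y)) (fh X f) x :=
    Real.one_le_sqrt.2 (le_add_of_nonneg_right (by positivity))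
  have W2 : ww X.g (fun y => P.φ (u y)) (fh X f) x ≤ 2 := by
    refine Real.sqrt_le_iff.2 ⟨zero_le_two, ?_⟩
    have h : P.φ (u x) ^ 2 * ip X.g (fh X f) (fh X f) x ≤ 2 ^ 2 * e := by gcongr
    linarith
  have q0 : 0 ≤ 3 * cY * (rc X.ρ x * P.βf (u x)) :=
    mul_nonneg (by linarith) (mul_nonneg (rc_mem _ _).1 (hP.βb _).1)
  have hs : ‖px x‖ ≤ X.R + 8 → s₁ ≤ scal X.g x := fun h => by
    have h' := hB.dec' x (by linarith) h
    linarith [sq_nonneg (tr X.g X.K x)]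
  have r7 : 0 ≤ X.R + 7 := by linarith [hX.R1]
  simp only [exs, ex, lm, if_neg (not_lt.2 hx), k1, k2, k3, zero_mul, Finset.sum_const_zero, er,
    k4]
  rcases le_total ‖px x‖ (X.R + 7) with h | h
  · refine sc p0 p2 W1 W2 e0 q0 ?_ h3
    have h5 := er_le p0 p2 W1 h4 h2 (by linarith)
    have h6 := mul_le_mul (show 2 * (1 + P.L * ip X.g (fh X f) (fh X f) x) ≤ 4 by linarith) h5
      (sq_nonneg _) (by norm_num)
    rw [rc_one r7 h] at hL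
    linarith [hs (by linarith)]
  · obtain ⟨f1, f2, f3⟩ := far hX f h
    refine sc p0 p2 W1 W2 le_rfl q0 ?_ (by rw [f2, neg_zero])
    have h5 : 0 ≤ rc (X.R + 7) x * (scal X.g x - s₁ / 8) := by
      rcases le_total ‖px x‖ (X.R + 8) with h' | h'
      · exact mul_nonneg (rc_mem _ _).1 (by linarith [hs h'])
      · rw [rc_zero r7 (by linarith), zero_mul]
    simp only [f3, Tt, f1, zero_mul, mul_zero, sub_zero]
    linarith

end Gout

theorem gout_of (cut1 : CUT1) (cut2 : CUT2) : GOUT := by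
  intro n M _ s₁ B
  obtain ⟨C₁, -, hga⟩ := P366Y.J.ga
  obtain ⟨C₂, cut2⟩ := cut2
  refine ⟨0, le_rfl, fun CK A₂ cY e a0 c0 e0 => ⟨max (max 48 (6 * cY / e)) (max C₁ C₂),
    fun X P hB hC _ N K₀ => ?_⟩⟩
  have hX := hC.hX
  have hP := hC.hP
  obtain ⟨-, L1, τ0, -⟩ := hP.pos
  obtain ⟨s0, s1⟩ := hB.s0
  obtain ⟨η0, η1⟩ := hP.η0
  have φ0 := hP.φ0.1
  have d0 : 0 < s₁ / (64 * P.L) := by positivity
  have d1 : 64 * P.L * (s₁ / (64 * P.L)) = s₁ := by field_simp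
  have b4 := (cx_mono hC ((le_max_right _ _).trans (le_max_left _ _))).big.b4
  have hc : 6 * cY * P.φ₀ ≤ e * P.η := by
    have h1 : 6 * cY / e * 1 * P.φ₀ ≤ 6 * cY / e * P.L * (P.φ₀ + P.L * P.φ₀ ^ 2 / P.τ) := by
      gcongr
      exact le_add_of_nonneg_right (by positivity)
    have h2 : e * (6 * cY / e * 1 * P.φ₀) = 6 * cY * P.φ₀ := by field_simp
    rw [← h2]
    exact mul_le_mul_of_nonneg_left (h1.trans b4) e0.le
  obtain ⟨ε₁, ε1, cut1⟩ := cut1 n M X P s₁ B _ hX hP hB d0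
  obtain ⟨ε₂, ε2, cut2⟩ := cut2 n M X P s₁ B K₀ _
    (cx_mono hC ((le_max_right _ _).trans (le_max_right _ _))) hB d0
  refine ⟨1, one_pos, 12 * cY, min ε₁ ε₂, lt_min ε1 ε2, 1,
    fun h _ B' hB' ε hε A hA θ K um A' a1 ψ f u hS x hx => ?_⟩
  obtain ⟨h1, h2, h3⟩ := (cut1 ε (hε.trans (min_le_left _ _)) A hA N θ K₀ K ψ f hS.jk x).2 hx
  have h4 := cut2 ε (hε.trans (min_le_right _ _)) A hA N θ K ψ f hS.ps hS.jk x hx P.L
    ⟨by linarith, le_rfl⟩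
  have hg := hga P hP (cx_mono hC ((le_max_left _ _).trans (le_max_right _ _))).big (ψ x)
    (hS.ps.bd x) _ ((mg hX).ip_nonneg (fh X f) x)
  have lo := Gout.low (u := u) (um := um) hX hP hB a0 a1 c0 d0.le
    (by linarith [mul_nonneg (sub_nonneg.2 L1) d0.le]) (by linarith) hx hg h1 h2 h3 h4
  have u0 : 0 ≤ u x := by linarith [hS.lo x]
  obtain ⟨r0, r1⟩ := rc_mem X.ρ x
  obtain ⟨β0, β1⟩ := hP.βb (u x)
  obtain ⟨p0, p2⟩ := hP.φb (u x)
  have q1 : rc X.ρ x * P.βf (u x) ≤ 1 := mul_le_one₀ r1 β0 β1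
  have q0 := mul_nonneg r0 β0
  refine ⟨?_, le_trans (neg_le_neg ?_) lo, fun _ => le_trans (neg_le_neg ?_) lo⟩
  · rw [lm, if_neg (not_lt.2 hx)]
    exact it1 hP (cx_mono hC ((le_max_left _ _).trans (le_max_left _ _))).big u0
  · have h5 : 2 * P.φ (u x) * (3 * cY * (rc X.ρ x * P.βf (u x))) ≤ 2 * 2 * (3 * cY * 1) := by
      gcongr
    exact mul_le_mul_of_nonneg_right (by linarith) (sq_nonneg _)
  · by_cases hx' : x ∈ {y : M | ‖px y‖ ≤ X.ρ + 1}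
    · rw [indicator_of_mem hx']
      rcases le_total (u x) (1 - P.η) with hu | hu
      · have h5 : 2 * P.φ₀ * (3 * cY * (rc X.ρ x * P.βf (u x))) * u x ^ 2 ≤
            2 * P.φ₀ * (3 * cY * 1) * 1 ^ 2 := by
          gcongr
          linarith
        rw [hP.φlo _ hu]
        linarith
      · rw [hP.β0 _ hu]
        linarith [mul_pos e0 η0]
    · rw [indicator_of_notMem hx', rc_zero (by linarith [hX.R1, hX.Rρ])
        (not_le.1 hx').le]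
      linarith

end Vale.Agent.P366M.Y.D
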