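import Vale.Agent.P366Q.D.Defs
import Vale.Agent.P366Y.D.Tst2

/-!
# P366Q, block D on manifolds: the hypotheses of the test
-/

open MeasureTheory Metric Filter Topology Set
open scoped ContDiff ENNReal
open Vale.Agent.P366 Vale.Agent.P366.Stmt Vale.Agent.P366Z Vale.Agent.P366Y
open Vale.Agent.P366M.Y.C (ex er gt ww b2 Tst)
open Vale.Agent.P366M.Y.J (Jk Cx)
open Vale.Agent.P366Y.J (io)
open Vale.Agent.P366Y.D (dz)
open Vale.Agent.P366Y.D (bdd_l)

noncomputable section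

namespace Vale.Agent.P366M.Y.D

theorem el_mono {n : ℕ} {M : Type} [Mfe n M] {g : Fld n M} {B B' : ℝ} {x : M} (hg : Met g) (h : C.El g B x)
    (e : B ≤ B') : C.El g B' x :=
  ⟨fun ξ => (h.g_hi ξ).trans (mul_le_mul_of_nonneg_right e (by positivity)),
    fun ξ => (h.g_lo ξ).trans (mul_le_mul_of_nonneg_right e (hg.g_nonneg x ξ)),
    fun ξ => (h.up_hi ξ).trans (mul_le_mul_of_nonneg_right e (by positivity)),
    fun ξ => (h.up_lo ξ).trans (mul_le_mul_of_nonneg_right e (hg.up_nonneg x ξ)),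
    h.dens_hi.trans e, h.dens_lo.trans (mul_le_mul_of_nonneg_right e (dens_nonneg _ _))⟩

theorem tst_of2 (hBK : BK) (hCP : CPB) (hHB : HB) (hI : GIN) (hO : GOUT) : TST := by
  intro n M _ X CK hX
  have hn := hX.dim
  have hg := mg hX
  obtain ⟨s₁, B₁, hB⟩ := hBK n M X hX
  obtain ⟨A₁, A10, hI⟩ := hI n M s₁ B₁
  obtain ⟨A₂, -, hO⟩ := hO n M s₁ B₁
  have s0 := hB.s0.1
  have B1 := hB.B1.1
  refine ⟨s₁ / 8, by positivity, max A₁ A₂, A10.trans (le_max_left _ _), fun cY cY0 => ?_⟩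
  obtain ⟨V, hV⟩ : ∃ V, V = volume.real {y : M | ‖px y‖ ≤ X.ρ + 1} := ⟨_, rfl⟩
  have V0 : 0 ≤ V := hV ▸ measureReal_nonneg
  have ω0 := omega_pos (n := n) (by omega)
  have γ0 : 0 < gam n := one_pos.trans (one_lt_gam hn)
  have n2 := nm2_pos hn
  obtain ⟨e, he⟩ : ∃ e, e = 4 * gam n * (n - 2) * omega n / (B₁ * (V + 1)) := ⟨_, rfl⟩
  have e0 : 0 < e := by rw [he]; positivity
  obtain ⟨C₁, hI⟩ := hI CK _ cY e (le_max_left A₁ A₂) cY0 e0
  obtain ⟨C₂, hO⟩ := hO CK _ cY e (le_max_right A₁ A₂) cY0 e0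
  refine ⟨max C₁ C₂, fun P hP N θ K₀ a a0 => ?_⟩
  have cx : Cx X P (max C₁ C₂) := ⟨hX, hP.ok, hP.fo, hP.big⟩
  obtain ⟨h₁, h1, D₁, ε₁, ε1, E₁, hI⟩ := hI X P hB (cx_mono cx (le_max_left _ _)) hP.ck N K₀
  obtain ⟨h₂, h2, D₂, ε₂, ε2, E₂, hO⟩ := hO X P hB (cx_mono cx (le_max_right _ _)) hP.ck N K₀
  obtain ⟨B', B'1, hHB⟩ := hHB n M X P s₁ B₁ N K₀ hX hP.ok hB
  have l1 := hP.ok.pos.1
  have φ0 := hP.ok.φ0.1
  obtain ⟨η0, η1⟩ := hP.ok.η0
  obtain ⟨B, hb⟩ := bdd_l [B₁, D₁, D₂, B', 1 / P.φ₀, 4 * P.lam, 16 * a ^ 2 * B', 2 * P.CK + 2 * B₁]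
  obtain ⟨A₀, hA⟩ := bdd_l [E₁, E₂, 1]
  have b1 : B₁ ≤ B := hb _ (by simp)
  have b2 : 4 * P.lam ≤ B := hb _ (by simp)
  refine ⟨min ε₁ ε₂, lt_min ε1 ε2, B, B1.trans b1, min h₁ h₂ / (2 * P.lam),
    div_pos (lt_min h1 h2) (by linarith), A₀,
    fun ε hε A hA' K ψ f u um β A' A'0 ps jk ge near su lo eqn as => ?_⟩
  have A1 : 1 ≤ A := (hA 1 (by simp)).trans hA'
  have st : Sit X P N θ K₀ ε A K ψ f u := ⟨ps, jk, ge, su, lo⟩
  have gd : ∀ x, Gd X P ⟨s₁ / 8, max A₁ A₂, cY, um, A'⟩ A e (min h₁ h₂) B ψ f u x := fun x => by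
    rcases lt_or_ge ‖px x‖ (X.R + 5) with k | k
    · exact hI _ (min_le_left _ _) B (hb _ (by simp)) ε (hε.trans (min_le_left _ _)) A
        ((hA _ (by simp)).trans hA') θ K um A' A'0 ψ f u st x k
    · exact hO _ (min_le_right _ _) B (hb _ (by simp)) ε (hε.trans (min_le_right _ _)) A
        ((hA _ (by simp)).trans hA') θ K um A' A'0 ψ f u st x k
  obtain ⟨sf, bf⟩ := hHB A A1 θ ε K ψ f jk
  obtain ⟨-, sT, bT⟩ := hCP n M X P s₁ B₁ A f hX hP.ok hB jk.sm jk.sup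
  have ms : MeasurableSet {y : M | ‖px y‖ ≤ X.ρ + 1} := (isCompact_px M _).measurableSet
  have i0 : ∀ x, 0 ≤ {y : M | ‖px y‖ ≤ X.ρ + 1}.indicator (fun _ => e * P.η) x := fun x =>
    indicator_nonneg (fun _ _ => by positivity) x
  refine ⟨Tt X P A f, lm X P ψ f,
    fun x => Lam X P ⟨s₁ / 8, max A₁ A₂, cY, um, A'⟩ ψ (fh X f) x (u x),
    fun x => B₁ * {y : M | ‖px y‖ ≤ X.ρ + 1}.indicator (fun _ => e * P.η) x,
    { met := hg
      sy := ⟨hX.smK, hX.syK⟩
      smf := sf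
      smT := sT
      smu := su
      smU := hX.smU
      smF := hP.ok.smφ
      u0 := fun x => by linarith [lo x]
      U0 := U0 hX
      el := fun x => el_mono hg (hB.el x) b1
      Fb := fun t ht => ⟨?_, by linarith [(hP.ok.φb t).2], (hP.ok.φd t).1, ?_⟩
      df := fun x => (bf x).2.1.trans (hb _ (by simp))
      d2f := fun x => (bf x).2.2.trans ?_
      Kb := fun x => (hB.Kb x).1.trans b1
      Tb := fun x => (bT x).2.trans (hb _ (by simp))
      lam0 := fun x => (gd x).1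
      eqn := eqn
      all := fun x => (gd x).2.1
      good := fun x hx => ?_
      int := (((integrable_indicator_iff ms).2
        (integrableOn_const (isCompact_px M _).measure_lt_top.ne))).const_mul _
      θ0 := fun x => mul_nonneg (by linarith) (i0 x)
      far := fun x hx => ⟨?_, ?_⟩
      asyU := hX.asy
      asy := as }, ?_⟩
  · have k : 1 / P.φ₀ ≤ B := hb _ (by simp)
    rw [div_le_iff₀ φ0] at k
    exact k.trans (mul_le_mul_of_nonneg_left (hP.ok.φb t).1 (by linarith))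
  · rcases le_or_gt t 2 with k | k
    · have k1 := (hP.ok.φd t).2.trans (mul_le_mul_of_nonneg_left (hP.ok.φb t).2 (by linarith))
      nlinarith [(hP.ok.φd t).1]
    · have ev : P.φ =ᶠ[𝓝 t] fun _ => 2 := by
        filter_upwards [Ioi_mem_nhds k] with z hz
        exact hP.ok.φhi z (by linarith [show (2 : ℝ) < z from hz])
      rw [ev.deriv_eq, deriv_const, mul_zero]
      linarith
  · have k : 16 * a ^ 2 * B' ≤ B := hb _ (by simp)
    rw [le_div_iff₀ (by positivity)]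
    refine le_trans (le_of_eq ?_) k
    field_simp
    norm_num
  · have k := (gd x).2.2 fun k => by
      rcases hx with hx | hx
      · rw [hP.ok.φhi _ (by linarith)]
        linarith [(ps.bd x).2, lt_min h1 h2]
      · have k1 := near x k fun y hy => hx y (by rwa [show 4 * (a / A) / 2 = 2 * (a / A) by ring])
        rwa [mul_div_cancel₀ _ (by linarith)] at k1
    have k1 := mul_le_mul_of_nonneg_left k (dens_nonneg X.g x)
    have k2 := mul_le_mul_of_nonneg_right (hB.el x).dens_hi (i0 x)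
    change _ ≤ _ * exs X P ⟨s₁ / 8, max A₁ A₂, cY, um, A'⟩ A ψ f u x
    linarith
  · funext i j
    simp only [Dat.g, cf, hX.flat.eq x hx]
  · rw [fh, rc_zero (by linarith [hX.R1]) (by linarith [hX.Rρ]), zero_mul]
  · rw [integral_const_mul, integral_indicator_const _ ms, ← hV, smul_eq_mul]
    have k : B₁ * (V * (e * P.η)) ≤ B₁ * ((V + 1) * (e * P.η)) := by gcongr; linarith
    refine k.trans (le_of_eq ?_)
    rw [he]
    field_simp

end Vale.Agent.P366M.Y.D
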