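import Vale.Agent.P366Q.D.Bk
import Vale.Agent.P366Q.D.Hb
import Vale.Agent.P366Q.D.Geo
import Vale.Agent.P366Q.D.Gau
import Vale.Agent.P366Q.D.Cut1
import Vale.Agent.P366Q.D.Cut2
import Vale.Agent.P366Q.D.Gout
import Vale.Agent.P366Q.D.Gin
import Vale.Agent.P366Q.D.Tst2
import Vale.Agent.P366Y.D.Sca

/-!
# P366Q, block D on manifolds: the hypotheses of the test hold
-/

namespace Vale.Agent.P366M.Y.D

theorem tst : TST :=
  tst_of2 bk cpb hb (gin_of cpb geo gau cut1 hb P366Y.D.sca) (gout_of cut1 cut2)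

end Vale.Agent.P366M.Y.D
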