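import Vale.Agent.P366Q.D.Defs
import Vale.Agent.P366Y.D.Bk

/-!
# P366Q, block D on manifolds: the constants of the data
-/

open MeasureTheory Metric Filter Topology Set
open scoped ContDiff ENNReal
open Vale.Agent.P366 Vale.Agent.P366.Stmt Vale.Agent.P366Z Vale.Agent.P366Y
open Vale.Agent.P366M.Y.C (ex er gt ww b2 Tst)
open Vale.Agent.P366M.Y.J (Jk Cx)
open Vale.Agent.P366Y.J (io)
open Vale.Agent.P366Y.D (dz)
open Vale.Agent.P366Y.D.BkH (sc)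

noncomputable section

namespace Vale.Agent.P366M.Y.D

namespace BkH

variable {n : ℕ} {M : Type} [Mfe n M] {F : M → ℝ}

theorem evb (hF : Continuous F) (r : ℝ) : ∀ᶠ B in atTop, ∀ x, ‖px x‖ ≤ r → |F x| ≤ B := by
  obtain ⟨K, hK⟩ := (isCompact_px M r).exists_bound_of_continuousOn hF.continuousOn
  filter_upwards [eventually_ge_atTop K] with B hB x hx
  exact (hK x hx).trans hB

theorem evc (hF : Continuous F) (r : ℝ) (h : ∀ x, r < ‖px x‖ → F x = 0) :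
    ∀ᶠ B in atTop, ∀ x, |F x| ≤ B := by
  filter_upwards [evb hF r, eventually_ge_atTop 0] with B hB h0 x
  by_cases hx : r < ‖px x‖
  · rwa [h x hx, abs_zero]
  · exact hB x (not_lt.1 hx)

theorem evp {G : Ch n M → E n → ℝ} (hG : ∀ e ∈ At M, Continuous (G e)) (r : ℝ) :
    ∀ᶠ B in atTop, ∀ x : M, ‖px x‖ ≤ r → |G (ch x) (pt x)| ≤ B := by
  obtain ⟨K, -, hK⟩ := bdd_ch hG r 0
  filter_upwards [eventually_ge_atTop K] with B hB x hx
  exact (hK x hx _ (mem_closedBall_self le_rfl)).trans hB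

theorem el {X : Dat n M} (h : X.Ok) : ∀ᶠ B in atTop, ∀ x, C.El X.g B x := by
  obtain ⟨Λ, hΛ⟩ := h.met.ell h.flat
  filter_upwards [eventually_ge_atTop (2 ^ |2 * bb n| * Λ),
    eventually_ge_atTop (2 ^ |n * bb n| * Λ)] with B h1 h2 x
  have s0 : ∀ ξ : Fin n → ℝ, 0 ≤ ∑ i, ξ i ^ 2 := fun ξ => by positivity
  have e1 : ∀ ξ : Fin n → ℝ, ∑ i, ∑ j, X.g x i j * ξ i * ξ j =
      X.U x ^ (2 * bb n) * ∑ i, ∑ j, X.g₀ x i j * ξ i * ξ j := fun ξ => by
    simp only [Dat.g, cf, Finset.mul_sum, mul_assoc]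
  have e2 : ∀ ξ : Fin n → ℝ, ∑ i, ∑ j, up X.g i j x * ξ i * ξ j =
      X.U x ^ (-(2 * bb n)) * ∑ i, ∑ j, up X.g₀ i j x * ξ i * ξ j := fun ξ => by
    simp only [Dat.g, h.met.up_cf (U0 h x), Finset.mul_sum, mul_assoc]
  have e3 : dens X.g x = X.U x ^ (n * bb n) * dens X.g₀ x := dens_cf (U0 h x)
  have k1 := fun ξ => sc (h.Ub x).1 (h.Ub x).2 le_rfl hΛ.one h1 (h.met.g_nonneg x ξ) (s0 ξ)
  have k2 := fun ξ => sc (p := -(2 * bb n)) (h.Ub x).1 (h.Ub x).2 (by rw [abs_neg]) hΛ.one h1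
    (h.met.up_nonneg x ξ) (s0 ξ)
  have k3 := sc (h.Ub x).1 (h.Ub x).2 le_rfl hΛ.one h2 (dens_nonneg X.g₀ x) zero_le_one
  exact ⟨fun ξ => e1 ξ ▸ (k1 ξ).1 (hΛ.g_hi x ξ), fun ξ => e1 ξ ▸ (k1 ξ).2 (hΛ.g_lo x ξ),
    fun ξ => e2 ξ ▸ (k2 ξ).1 (hΛ.up_hi x ξ), fun ξ => e2 ξ ▸ (k2 ξ).2 (hΛ.up_lo x ξ),
    e3 ▸ (mul_one B) ▸ k3.1 ((mul_one Λ).symm ▸ hΛ.dens_hi x), e3 ▸ k3.2 (hΛ.dens_lo x)⟩

theorem rc_ev {r : ℝ} (hr : 0 ≤ r) {x : M} (hx : r + 1 < ‖px x‖) : rc r =ᶠ[𝓝 x] fun _ => 0 :=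
  (ev_lt_px hx).mono fun _ hz => rc_zero hr hz.le

theorem cutb {g : Fld n M} (hg : Met g) {r : ℝ} (hr : 0 ≤ r) : ∀ᶠ B in atTop, ∀ i j,
    ∀ x : M, |pd i (rc r) x| ≤ B ∧ |hess g (rc r) x i j| ≤ B :=
  eventually_all.2 fun i => eventually_all.2 fun j => by
    filter_upwards [evp (G := fun e : Ch n M => Stmt.pd i (loc e (rc r)))
      (fun e he => (((sm_rc r).lc he).pd i).cont) (r + 1),
      evp (G := fun e y => Stmt.hess (rep e g) (loc e (rc r)) y i j)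
      (fun e he => ((hg.rep he).sm_hess ((sm_rc r).lc he) i j).cont) (r + 1),
      eventually_ge_atTop 0] with B h1 h2 h0 x
    by_cases hx : r + 1 < ‖px x‖
    · rw [pd_congr (rc_ev hr hx), pd_const, hess_congr (rc_ev hr hx), hess_const, abs_zero]
      exact ⟨h0, h0⟩
    · exact ⟨h1 x (not_lt.1 hx), h2 x (not_lt.1 hx)⟩

theorem gap {G : M → ℝ} (hF : Continuous F) (hG : Continuous G) {S : Set M} (hS : IsClosed S)
    (r : ℝ) (h : ∀ x ∈ S, ‖px x‖ ≤ r → F x < G x) :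
    ∃ s > (0 : ℝ), ∀ x ∈ S, ‖px x‖ ≤ r → F x + s ≤ G x := by
  obtain ⟨s, h1, h2⟩ := ((isCompact_px M r).inter_left hS).exists_forall_le'
    (hG.sub hF).continuousOn (a := 0) fun x hx => sub_pos.2 (h x hx.1 hx.2)
  exact ⟨s, h1, fun x h3 h4 => le_sub_iff_add_le'.1 (h2 x ⟨h3, h4⟩)⟩

end BkH

open BkH

theorem bk : BK := by
  intro n M _ X h
  have hg := mg h
  have c1 := (hg.sm_tr h.smK).cont
  have c2 := (hg.sm_mu h.smK).cont
  have c3 : Continuous (covNorm X.g (mom X.g X.K)) :=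
    hg.cont_covNorm fun e he i => (hg.sm_mom h.smK e he i).of_le (by simp)
  have c4 : Continuous (gn X.g X.p) := hg.cont_gn h.smp.one
  obtain ⟨s, s0, hs⟩ := gap (((c3.const_mul 2).add (c4.const_mul 4)).add ((c1.pow 2).min
    ((h.smp.cont.const_mul 4).mul c1.abs))) (c2.const_mul 2)
    (isClosed_le continuous_const h.smF.cont) (X.R + 2) h.dec
  obtain ⟨t, t0, ht⟩ := gap (c1.pow 2) (c2.const_mul 2)
    (isClosed_le continuous_const cont_npx) (X.R + 8) h.dec'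
  have a1 := (evc (hg.sm_normSq h.smK).cont (X.R + 3) fun x hx => by
    simp [normSq, h.K0 x hx.le]).and (evc c1 (X.R + 3) fun x hx => by simp [tr, h.K0 x hx.le])
  have a2 := ((evb c2 (X.ρ + 1)).and (evb c3 (X.ρ + 1))).and ((evb c4 (X.ρ + 1)).and
    ((eventually_all.2 fun k => eventually_all.2 fun i => eventually_all.2 fun j =>
      evp (G := fun e y => Stmt.chr (rep e X.g) k i j y - Stmt.chr (rep e bg) k i j y)
        (fun e he => ((hg.rep he).sm_chr k i j).cont.sub ((bg_met.rep he).sm_chr k i j).cont)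
        (X.ρ + 1)).and
      (eventually_all.2 fun i => eventually_all.2 fun j =>
        evp (G := fun e => Stmt.up (rep e X.g) i j) (fun e he => ((hg.rep he).sm_up i j).cont)
          (X.ρ + 1))))
  have a3 := cutb hg (r := X.R + 5) (by linarith [h.R1])
  obtain ⟨B, ⟨⟨b1, b2⟩, b3⟩, ⟨b4, b5⟩, b6⟩ := ((((eventually_ge_atTop 1).and
    (eventually_ge_atTop X.p₀)).and (el h)).and ((a1.and a2).and a3)).exists
  refine ⟨min (min s t) 1, B, ⟨by positivity, min_le_right _ _⟩, ⟨b1, b2⟩, b3,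
    fun x => ⟨(le_abs_self _).trans (b4.1 x), b4.2 x⟩, fun x hx => ⟨b5.1.1 x hx,
      (le_abs_self _).trans (b5.1.2 x hx), (le_abs_self _).trans (b5.2.1 x hx),
      fun k i j => b5.2.2.1 k i j x hx, fun i j => up_pt X.g i j x ▸ b5.2.2.2 i j x hx⟩,
    fun x h1 h2 => ?_, fun x h1 h2 => ?_, fun x i j => b6 i j x⟩
  · exact (add_le_add_right ((min_le_left _ _).trans (min_le_left _ _)) _).trans (hs x h1 h2)
  · exact (add_le_add_right ((min_le_left _ _).trans (min_le_right _ _)) _).trans (ht x h1 h2)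

end Vale.Agent.P366M.Y.D
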