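import Vale.Agent.P366Q.Sk3
import Vale.Agent.P366M.End2
import Vale.Agent.P366M.Calc2
import Vale.Agent.P366Y.D.Defs

/-!
# P366Q, block D on manifolds: the pointwise estimates for the coupled system (statements)
-/

open MeasureTheory Metric Filter Topology Set
open scoped ContDiff ENNReal
open Vale.Agent.P366 Vale.Agent.P366.Stmt Vale.Agent.P366Z Vale.Agent.P366Y
open Vale.Agent.P366M.Y.C (ex er gt ww b2 Tst)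
open Vale.Agent.P366M.Y.J (Jk Cx)
open Vale.Agent.P366Y.J (io)
open Vale.Agent.P366Y.D (dz)

noncomputable section

namespace Vale.Agent.P366M.Y.D

section

variable {n : ℕ} {M : Type} [Mfe n M]

theorem cx_mono {X : Dat n M} {P : Pa} {C C' : ℝ} (h : Cx X P C) (e : C' ≤ C) : Cx X P C' :=
  ⟨h.hX, h.hP, h.fo, P366Y.J.big_mono h.hP h.big e⟩

theorem U0 {X : Dat n M} (h : X.Ok) (x : M) : 0 < X.U x := by linarith [(h.Ub x).1]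

theorem mg {X : Dat n M} (h : X.Ok) : Met X.g := h.met.cf h.smU (U0 h)

theorem rc_mem (r : ℝ) (x : M) : 0 ≤ rc r x ∧ rc r x ≤ 1 := P366Y.J.rc_mem r (px x)

theorem rc_one {r : ℝ} (hr : 0 ≤ r) {x : M} (hx : ‖px x‖ ≤ r) : rc r x = 1 :=
  P366Y.J.rc_one hr hx

theorem rc_zero {r : ℝ} (hr : 0 ≤ r) {x : M} (hx : r + 1 ≤ ‖px x‖) : rc r x = 0 :=
  P366Y.J.rc_zero hr hx

theorem sm_rc (r : ℝ) : Smooth (rc r : M → ℝ) := smooth_px (P366Y.J.sm_rc r)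

/-- the capillary term along `f` -/
def cp (X : Dat n M) (P : Pa) (A : ℝ) (f : M → ℝ) (x : M) : ℝ := cap X P (1 / A ^ 2) x (f x)

/-- the capillary term after the cut -/
def Tt (X : Dat n M) (P : Pa) (A : ℝ) (f : M → ℝ) (x : M) : ℝ := rc (X.R + 5) x * cp X P A f x

/-- the coefficient of the gauge inside -/
def li (X : Dat n M) (P : Pa) (ψ f : M → ℝ) (x : M) : ℝ :=
  P.Gs (ψ x) (ip X.g f f x) / io P (ψ x) (ip X.g f f x)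

/-- the coefficient of the gauge -/
def lm (X : Dat n M) (P : Pa) (ψ f : M → ℝ) (x : M) : ℝ :=
  if ‖px x‖ < X.R + 5 then li X P ψ f x else P.L

/-- the constants of the data -/
structure Bk (X : Dat n M) (s₁ B : ℝ) : Prop where
  s0 : 0 < s₁ ∧ s₁ ≤ 1
  B1 : 1 ≤ B ∧ X.p₀ ≤ B
  el : ∀ x, C.El X.g B x
  Kb : ∀ x, normSq X.g X.K x ≤ B ∧ |tr X.g X.K x| ≤ B
  bd : ∀ x, ‖px x‖ ≤ X.ρ + 1 → |mu X.g X.K x| ≤ B ∧ covNorm X.g (mom X.g X.K) x ≤ B ∧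
    gn X.g X.p x ≤ B ∧ (∀ k i j, |chr X.g k i j x - chr bg k i j x| ≤ B) ∧
      ∀ i j, |up X.g i j x| ≤ B
  dec : ∀ x, 0 ≤ X.F x → ‖px x‖ ≤ X.R + 2 → 2 * covNorm X.g (mom X.g X.K) x + 4 * gn X.g X.p x +
    min (tr X.g X.K x ^ 2) (4 * X.p x * |tr X.g X.K x|) + s₁ ≤ 2 * mu X.g X.K x
  dec' : ∀ x, X.R + 2 ≤ ‖px x‖ → ‖px x‖ ≤ X.R + 8 → tr X.g X.K x ^ 2 + s₁ ≤ 2 * mu X.g X.K x
  cut : ∀ (x : M) i j, |pd i (rc (X.R + 5)) x| ≤ B ∧ |hess X.g (rc (X.R + 5)) x i j| ≤ B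

/-- the situation of the test -/
structure Sit (X : Dat n M) (P : Pa) (N θ K₀ ε A K : ℝ) (ψ f u : M → ℝ) : Prop where
  ps : Ps X P A ψ
  jk : Jk X P N θ K₀ ε A K ψ f
  ge : ∀ x, P.φ (u x) ≤ ψ x
  smu : Smooth u
  lo : ∀ x, 1 - 2 * P.η ≤ u x

/-- the terms of order zero of the coupled system -/
def exs (X : Dat n M) (P : Pa) (c : Cu) (A : ℝ) (ψ f u : M → ℝ) (x : M) : ℝ :=
  ex X.g X.K (fun y => P.φ (u y)) (fh X f) (Tt X P A f) u (lm X P ψ f x)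
    (Lam X P c ψ (fh X f) x (u x)) x

/-- the conclusion at the point `x` -/
def Gd (X : Dat n M) (P : Pa) (c : Cu) (A e h B' : ℝ) (ψ f u : M → ℝ) (x : M) : Prop :=
  4 * P.φ (u x) * (P.φ (u x) + u x * deriv P.φ (u x)) ≤ lm X P ψ f x ∧
    -(B' * u x ^ 2) ≤ exs X P c A ψ f u x ∧ ((‖px x‖ ≤ X.R + 4 → ψ x ≤ P.φ (u x) + h) →
      -{y : M | ‖px y‖ ≤ X.ρ + 1}.indicator (fun _ => e * P.η) x ≤ exs X P c A ψ f u x)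

end

/-- **BK**: the constants exist -/
def BK : Prop := ∀ (n : ℕ) (M : Type) [Mfe n M] (X : Dat n M), X.Ok → ∃ s₁ B, Bk X s₁ B

/-- **CPB**: the capillary term is smooth and bounded -/
def CPB : Prop := ∀ (n : ℕ) (M : Type) [Mfe n M] (X : Dat n M) (P : Pa) (s₁ B A : ℝ) (f : M → ℝ),
  X.Ok → P.Ok → Bk X s₁ B → Smooth f → (∀ x, |f x| ≤ 8 * P.F₀) →
  Smooth (cp X P A f) ∧ Smooth (Tt X P A f) ∧
    ∀ x, |cp X P A f x| ≤ 2 * P.CK + 2 * B ∧ |Tt X P A f x| ≤ 2 * P.CK + 2 * B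

/-- **GEO**: the terms that do not depend on `u` -/
def GEO : Prop := ∀ (n : ℕ) (M : Type) [Mfe n M] (s₁ B : ℝ), ∃ C : ℝ, ∃ A₁ ≥ (0 : ℝ),
  ∀ (X : Dat n M) (P : Pa), Cx X P C →
  Bk X s₁ B → ∃ A₀ : ℝ, ∀ A ≥ A₀, ∀ (N θ K₀ ε K : ℝ) (ψ f : M → ℝ), Jk X P N θ K₀ ε A K ψ f →
    ∀ x, ‖px x‖ ≤ X.R + 5 → ∀ φ W : ℝ, 0 < φ → φ ≤ 2 → 0 < W → W ^ 2 = 1 + φ ^ 2 * ip X.g f f x →
      φ * W * (s₁ / 2) + 2 * P.τ * φ ^ 2 * ip X.g f f x ≤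
        φ * W * (2 * mu X.g X.K x + cp X P A f x ^ 2 + 2 * cp X P A f x * tr X.g X.K x +
          A₁ * dz P (f x)) +
        2 * φ ^ 2 * (ip X.g (cp X P A f) f x - ∑ j, mom X.g X.K j x * gr X.g f j x)

/-- **GAU**: the defect of the gauge inside -/
def GAU : Prop := ∃ C : ℝ, ∀ (n : ℕ) (M : Type) [Mfe n M] (X : Dat n M) (P : Pa), Cx X P C →
  ∀ (N θ K₀ ε A K : ℝ) (ψ f φ : M → ℝ) (x : M), Jk X P N θ K₀ ε A K ψ f → ‖px x‖ ≤ X.R + 7 →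
    P.φ₀ ≤ φ x → φ x ≤ ψ x → ψ x ≤ 2 → 12 * P.lam * φ x ^ 2 ≤ li X P ψ f x ∧
    1 + li X P ψ f x * ip X.g f f x = (io P (ψ x) (ip X.g f f x))⁻¹ ∧
    1 + li X P ψ f x * ip X.g f f x ≤ 1 + 4 * P.L * ip X.g f f x ∧
    (ip X.g f f x ≤ P.M₀ ^ 2 → li X P ψ f x = P.L * ψ x ^ 2) ∧
    |gt X.g X.K f (li X P ψ f x) x| ≤ P.CK ∧ ∃ q : ℝ, 0 ≤ q ∧
      q * (1 + φ x ^ 2 * ip X.g f f x) ≤ 1 ∧
      (ip X.g f f x ≤ P.M₀ ^ 2 → q * P.φ₀ ≤ 2 * (ψ x - φ x)) ∧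
      er X.g X.K φ f (cp X P A f) (li X P ψ f x) x =
        -q * (gt X.g X.K f (li X P ψ f x) x + cp X P A f x)

/-- **CUT1**: the terms of order at most one are small in the zone of the cut -/
def CUT1 : Prop := ∀ (n : ℕ) (M : Type) [Mfe n M] (X : Dat n M) (P : Pa) (s₁ B e : ℝ), X.Ok →
  P.Ok → Bk X s₁ B → 0 < e → ∃ ε₀ > (0 : ℝ), ∀ ε ≤ ε₀, ∀ A ≥ (1 : ℝ),
    ∀ (N θ K₀ K : ℝ) (ψ f : M → ℝ),
    Jk X P N θ K₀ ε A K ψ f → ∀ x, (X.R + 4 ≤ ‖px x‖ → ‖px x‖ ≤ X.R + 6 →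
      |cp X P A f x| ≤ e ∧ ip X.g f f x ≤ e) ∧ (X.R + 5 ≤ ‖px x‖ →
      ip X.g (fh X f) (fh X f) x ≤ e ∧ |Tt X P A f x| ≤ e ∧ -e ≤ ip X.g (Tt X P A f) (fh X f) x)

/-- **CUT2**: the trace of the Hessian is small in the zone of the cut -/
def CUT2 : Prop := ∃ C : ℝ, ∀ (n : ℕ) (M : Type) [Mfe n M] (X : Dat n M) (P : Pa)
  (s₁ B K₀ e : ℝ), Cx X P C →
  Bk X s₁ B → 0 < e → ∃ ε₀ > (0 : ℝ), ∀ ε ≤ ε₀, ∀ A ≥ (1 : ℝ), ∀ (N θ K : ℝ) (ψ f : M → ℝ),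
    Ps X P A ψ → Jk X P N θ K₀ ε A K ψ f → ∀ x, X.R + 5 ≤ ‖px x‖ →
      ∀ lam ∈ Icc 0 P.L, |gt X.g (hess X.g (fh X f)) (fh X f) lam x| ≤ e

/-- **HB**: the bounds of the function after the cut -/
def HB : Prop := ∀ (n : ℕ) (M : Type) [Mfe n M] (X : Dat n M) (P : Pa) (s₁ B N K₀ : ℝ), X.Ok →
  P.Ok → Bk X s₁ B →
  ∃ B' ≥ (1 : ℝ), ∀ A ≥ (1 : ℝ), ∀ (θ ε K : ℝ) (ψ f : M → ℝ), Jk X P N θ K₀ ε A K ψ f →
    Smooth (fh X f) ∧ ∀ x, ip X.g f f x ≤ B' ∧ ip X.g (fh X f) (fh X f) x ≤ B' ∧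
      normSq X.g (hess X.g (fh X f)) x ≤ B' * A ^ 2

/-- the two pointwise estimates on the set of the points `x` with `Z X.R ‖px x‖` -/
def Good (Z : ℝ → ℝ → Prop) : Prop := ∀ (n : ℕ) (M : Type) [Mfe n M] (s₁ B : ℝ), ∃ A₁ ≥ (0 : ℝ),
  ∀ CK A₂ cY e : ℝ, A₁ ≤ A₂ → 0 ≤ cY → 0 < e → ∃ C : ℝ, ∀ (X : Dat n M) (P : Pa), Bk X s₁ B →
    Cx X P C → P.CK = CK → ∀ N K₀ : ℝ, ∃ h₀ > (0 : ℝ), ∃ B₀ : ℝ, ∃ ε₀ > (0 : ℝ), ∃ A₀ : ℝ,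
      ∀ h ≤ h₀, ∀ B' ≥ B₀, ∀ ε ≤ ε₀, ∀ A ≥ A₀, ∀ (θ K um : ℝ), ∀ A' ≥ (0 : ℝ), ∀ ψ f u,
        Sit X P N θ K₀ ε A K ψ f u → ∀ x, Z X.R ‖px x‖ →
          Gd X P ⟨s₁ / 8, A₂, cY, um, A'⟩ A e h B' ψ f u x

/-- **GIN**: inside -/
def GIN : Prop := Good fun R r => r < R + 5

/-- **GOUT**: in the zone of the cut and outside -/
def GOUT : Prop := Good fun R r => R + 5 ≤ r

end Vale.Agent.P366M.Y.D
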